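import Vale.Agent.P007.H11.Main

open MeasureTheory NumberField Filter Topology
open scoped CompactlySupported

namespace Vale.Agent.Results.P007.OddLimits

open Vale.Agent.P007.F

/-- **Q1 and the limits of packet measures in odd degree.** The complete answer to Q1 (for `n ≥ 4`
the assertion of Q1 holds in degree `n` if and only if `n` is prime, with counterexamples in every
composite degree, necessary conditions in every degree, existence and uniqueness of all the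
measures involved), together with a description of all limits for every odd `n ≥ 3`, composite or
prime: no mass escapes, every weak limit is an `A_n`-invariant probability measure which off the set
`RM n` of the lattices with real multiplication is a multiple of the invariant probability, and the
packet measures converge to the invariant probability if and only if they do not accumulate on the
lattices with real multiplication. -/
theorem result :
    (∀ n : ℕ, 4 ≤ n → (Q1 n ↔ n.Prime)) ∧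
    (∀ n : ℕ, 4 ≤ n → ¬ n.Prime →
      ∃ (K : ℕ → Type) (_ : ∀ i, Field (K i)) (_ : ∀ i, NumberField (K i)),
        (∀ i, IsTotallyReal (K i) ∧ Module.finrank ℚ (K i) = n) ∧
        Tendsto (fun i => |discr (K i)|) atTop atTop ∧
        ∃ Y : Set (X n), IsClosed Y ∧ (∀ m : Measure (X n), IsInvProb m → m Y = 0) ∧
          ∀ (σ : ∀ i, Fin n ≃ (K i →+* ℝ)) (μ : ℕ → Measure (X n)),
            (∀ i, PacketMeas (K i) ⊤ (σ i) (μ i)) →
              (∀ i, μ i Y = 1) ∧ ∀ m, IsInvProb m → ¬ WeakTo μ m) ∧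
    (∀ n : ℕ, 2 ≤ n → ∀ (K : ℕ → Type) [∀ i, Field (K i)] [∀ i, NumberField (K i)]
      (O : ∀ i, Subring (𝓞 (K i))) (σ : ∀ i, Fin n ≃ (K i →+* ℝ)) (μ : ℕ → Measure (X n))
      (m : Measure (X n)), (∀ i, PacketMeas (K i) (O i) (σ i) (μ i)) → IsInvProb m → WeakTo μ m →
      Tendsto (fun i => disc (K i) (O i)) atTop atTop ∧
      ∀ B : ℝ, ∀ᶠ i in atTop, ∀ a ∈ O i, (∀ j, |σ i j a| ≤ B) → ∃ z : ℤ, a = z) ∧
    (∀ (n : ℕ) (K : Type) [Field K] [NumberField K] (O : Subring (𝓞 K)) (σ : Fin n ≃ (K →+* ℝ)),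
      IsTriple K O σ → ∃ μ, IsProbabilityMeasure μ ∧ ∀ ν, PacketMeas K O σ ν ↔ ν = μ) ∧
    (∀ n : ℕ, 1 ≤ n → ∃! m : Measure (X n), IsInvProb m) ∧
    (∀ n : ℕ, Odd n → 3 ≤ n →
      (∃ C : ℝ, ∀ ε : ℝ, 0 < ε → ε < 1 → ∃ D₀ : ℕ,
        ∀ (K : Type) [Field K] [NumberField K] (O : Subring (𝓞 K)) (σ : Fin n ≃ (K →+* ℝ))
          (μ : Measure (X n)), PacketMeas K O σ μ → D₀ ≤ disc K O →
          μ {x | ∃ g, pt g = x ∧ ∃ v ∈ lat g, v ≠ 0 ∧ ∀ j, |v j| < ε} ≤
            ENNReal.ofReal (C * √ε)) ∧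
      ∀ (K : ℕ → Type) [∀ i, Field (K i)] [∀ i, NumberField (K i)]
        (O : ∀ i, Subring (𝓞 (K i))) (σ : ∀ i, Fin n ≃ (K i →+* ℝ)) (μ : ℕ → Measure (X n))
        (m : Measure (X n)), (∀ i, PacketMeas (K i) (O i) (σ i) (μ i)) →
        Tendsto (fun i => disc (K i) (O i)) atTop atTop → IsInvProb m →
        (∃ φ : ℕ → ℕ, StrictMono φ ∧ ∃ ν, IsProbabilityMeasure ν ∧
          WeakTo (fun i => μ (φ i)) ν) ∧
        (∀ φ : ℕ → ℕ, StrictMono φ → ∀ (ν : Measure (X n)) [IsFiniteMeasure ν],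
          (∀ f : C_c(X n, ℝ), Tendsto (fun i => ∫ x, f x ∂μ (φ i)) atTop (𝓝 (∫ x, f x ∂ν))) →
          IsProbabilityMeasure ν ∧ (∀ u, ν.map (tr (aexp u)) = ν) ∧
            ν.restrict (RM n)ᶜ = ν (RM n)ᶜ • m) ∧
        (WeakTo μ m ↔ ∀ p : Fin n → ℝ, IsMult p → ∀ L ⊆ Stab p, IsCompact L → ∀ ε > 0,
          ∃ V, IsOpen V ∧ L ⊆ V ∧ ∀ᶠ i in atTop, μ i V ≤ ε)) ∧
    (∀ (n : ℕ) (m : Measure (X n)), IsInvProb m → m (RM n) = 0) ∧
    (∀ n : ℕ, n.Prime → RM n = ∅) := by
  exact ⟨Q1_iff, composite_fails, fun _ hn _ _ _ _ _ _ _ h hm hW => necessary hn h hm hW,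
    fun _ _ _ _ _ _ h => exists_packetMeas h, exists_isInvProb,
    fun _ hn hn3 => ⟨cusp_bound hn hn3, fun _ _ _ _ _ _ _ h hd hm => odd_degree hn hn3 h hd hm⟩,
    fun _ _ hm => RM_null hm, fun _ hn => RM_prime hn⟩

end Vale.Agent.Results.P007.OddLimits
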