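import Vale.Agent.P007.S11.Final
import Vale.Agent.P007.S11.Necess

open MeasureTheory NumberField Filter Topology
open scoped CompactlySupported

namespace Vale.Agent.Results.P007.WeakLimits

open Vale.Agent.P007.F

/-- **Q1 and all weak limits of packet measures.** The complete answer to Q1 (for `n ≥ 4` the
assertion of Q1 holds in degree `n` if and only if `n` is prime, with counterexamples in every
composite degree), together with the structure of the limits of ALL sequences of packet measures in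
every degree `n ≥ 3`: no mass escapes, the packet measures converge to the invariant probability if
and only if they do not accumulate on the lattices stable under some `diag(p)` (in which case every
irreducible monic polynomial of degree `d`, `1 < d < n`, has roots in finitely many of the orders
only), and every weak limit is algebraic, i.e. a countable combination of the invariant probability and of homogeneous
probability measures, each carried by a closed orbit of the centralizer of some `diag(p)` in the set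
of the lattices stable under `diag(p)` and invariant under this centralizer. If the orders contain
the same irrational element and the relative degree is a prime, the packet measures become
equidistributed on each of these closed orbits. -/
theorem result :
    (∀ n : ℕ, 4 ≤ n → (Q1 n ↔ n.Prime)) ∧
    (∀ n : ℕ, 4 ≤ n → ¬ n.Prime →
      ∃ (K : ℕ → Type) (_ : ∀ i, Field (K i)) (_ : ∀ i, NumberField (K i)),
        (∀ i, IsTotallyReal (K i) ∧ Module.finrank ℚ (K i) = n) ∧
        Tendsto (fun i => |discr (K i)|) atTop atTop ∧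
        ∃ Y : Set (X n), IsClosed Y ∧ (∀ m : Measure (X n), IsInvProb m → m Y = 0) ∧
          ∀ (σ : ∀ i, Fin n ≃ (K i →+* ℝ)) (μ : ℕ → Measure (X n)),
            (∀ i, PacketMeas (K i) ⊤ (σ i) (μ i)) →
              (∀ i, μ i Y = 1) ∧ ∀ m, IsInvProb m → ¬ WeakTo μ m) ∧
    (∀ (n : ℕ) (K : Type) [Field K] [NumberField K] (O : Subring (𝓞 K)) (σ : Fin n ≃ (K →+* ℝ)),
      IsTriple K O σ → ∃ μ, IsProbabilityMeasure μ ∧ ∀ ν, PacketMeas K O σ ν ↔ ν = μ) ∧
    (∀ n : ℕ, 1 ≤ n → ∃! m : Measure (X n), IsInvProb m) ∧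
    (∀ n : ℕ, 3 ≤ n →
      ∀ (K : ℕ → Type) [∀ i, Field (K i)] [∀ i, NumberField (K i)] (O : ∀ i, Subring (𝓞 (K i)))
        (σ : ∀ i, Fin n ≃ (K i →+* ℝ)) (μ : ℕ → Measure (X n)) (m : Measure (X n)),
        (∀ i, PacketMeas (K i) (O i) (σ i) (μ i)) →
        Tendsto (fun i => disc (K i) (O i)) atTop atTop → IsInvProb m →
        (∃ φ : ℕ → ℕ, StrictMono φ ∧ ∃ ν, IsProbabilityMeasure ν ∧
          WeakTo (fun i => μ (φ i)) ν) ∧
        (∀ φ : ℕ → ℕ, StrictMono φ → ∀ (ν : Measure (X n)) [IsFiniteMeasure ν],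
          (∀ f : C_c(X n, ℝ), Tendsto (fun i => ∫ x, f x ∂μ (φ i)) atTop (𝓝 (∫ x, f x ∂ν))) →
          WeakTo (fun i => μ (φ i)) ν ∧ IsProbabilityMeasure ν ∧
          ∃ κ, Comb IsMult κ ∧ ν = ν (RM n)ᶜ • m + κ) ∧
        (WeakTo μ m ↔ ∀ p : Fin n → ℝ, IsMult p → ∀ L ⊆ Stab p, IsCompact L → ∀ ε > 0,
          ∃ V, IsOpen V ∧ L ⊆ V ∧ ∀ᶠ i in atTop, μ i V ≤ ε) ∧
        (WeakTo μ m → ∀ f : Polynomial ℤ, f.Monic → Irreducible f → 1 < f.natDegree →
          f.natDegree < n → ∀ᶠ i in atTop, ∀ a ∈ O i, Polynomial.aeval a f ≠ 0)) ∧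
    (∀ (n l : ℕ) (f : Polynomial ℤ) (p : Fin n → ℝ), l.Prime → f.Monic →
      Irreducible f → 1 < f.natDegree → f.natDegree * l = n →
      (∀ j, Polynomial.aeval (p j) f = 0) →
      ∀ (K : ℕ → Type) [∀ i, Field (K i)] [∀ i, NumberField (K i)] (O : ∀ i, Subring (𝓞 (K i)))
        (σ : ∀ i, Fin n ≃ (K i →+* ℝ)) (μ : ℕ → Measure (X n)),
        (∀ i, PacketMeas (K i) (O i) (σ i) (μ i)) → (∀ i, ∃ a ∈ O i, ∀ j, σ i j a = p j) →
        Tendsto (fun i => disc (K i) (O i)) atTop atTop →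
        (∀ i, μ i (Stab p) = 1) ∧
        (∀ ε > 0, ∃ C : Set (X n), IsCompact C ∧ ∀ᶠ i in atTop, μ i Cᶜ ≤ ε) ∧
        ∀ x ∈ Stab p, IsClosed (orbC p x) ∧
          ((∃ κ, Homog p κ ∧ κ (orbC p x) = 1 ∧ ∀ F : C_c(X n, ℝ),
            Tendsto (fun i => ∫ y in orbC p x, F y ∂μ i - (μ i (orbC p x)).toReal * ∫ y, F y ∂κ)
              atTop (𝓝 0)) ∨
            Tendsto (fun i => (μ i (orbC p x)).toReal) atTop (𝓝 0))) ∧
    (∀ n : ℕ, 3 ≤ n → ∃ C : ℝ, ∀ ε : ℝ, 0 < ε → ε < 1 → ∃ D₀ : ℕ,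
      ∀ (K : Type) [Field K] [NumberField K] (O : Subring (𝓞 K)) (σ : Fin n ≃ (K →+* ℝ))
        (μ : Measure (X n)), PacketMeas K O σ μ → D₀ ≤ disc K O →
        μ {x | ∃ g, pt g = x ∧ ∃ v ∈ lat g, v ≠ 0 ∧ ∀ j, |v j| < ε} ≤ ENNReal.ofReal (C * √ε)) ∧
    (∀ (n : ℕ) (p : Fin n → ℝ) (x : X n) (κ κ' : Measure (X n)), x ∈ Stab p → Homog p κ →
      Homog p κ' → κ (orbC p x) = 1 → κ' (orbC p x) = 1 → κ = κ') ∧
    (∀ (n : ℕ) (m : Measure (X n)), IsInvProb m → m (RM n) = 0) ∧
    (∀ n : ℕ, n.Prime → RM n = ∅) := by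
  refine ⟨Q1_iff, composite_fails, fun _ _ _ _ _ _ h => exists_packetMeas h, exists_isInvProb,
    ?_, ?_, fun n hn3 => O3.cusp_bound_fam hn3 (Vale.Agent.P007.S11.keyStmt n hn3),
    fun _ _ _ _ _ hx h h' h1 h1' => homog_unique hx h h' h1 h1',
    fun _ _ hm => RM_null hm, fun _ hn => RM_prime hn⟩
  · intro n hn3 K _ _ O σ μ m h hd hm
    have hkey := Vale.Agent.P007.S11.keyStmt n hn3
    refine ⟨O3.subseq_fam hn3 hkey h hd, ?_, O3.criterion_fam hn3 hkey h hd hm,
      fun hW f hf hfi hf1 hfn => O3.no_roots hn3 hkey h hd hm hW hf hfi hf1 hfn⟩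
    intro φ hφ ν _ hν
    have h3 := O3.algebraic_fam hn3 hkey (fun i => h (φ i)) (hd.comp hφ.tendsto_atTop) hm ν hν
    exact ⟨h3.1, h3.2.1, h3.2.2.1⟩
  · intro n l f p hl hf hfi hf1 hln hroot K _ _ O σ μ h hp hd
    have hn3 : 3 ≤ n := by
      have := hl.two_le
      nlinarith
    exact O3.relative hf hfi hf1 hl hln (Vale.Agent.P007.S11.keyStmt n hn3) hroot h hp hd

end Vale.Agent.Results.P007.WeakLimits
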